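import Vale.Agent.P329.Height.Group

/-! P329: generalized star height at most one for languages recognized by finite groups with an
abelian subgroup whose quotient is an elementary abelian `p`-group, `p` any prime. -/

namespace Vale.Agent.Results.P329.AbelianByElementary

theorem result (p : ℕ) (hp : p.Prime) {α G : Type} [Finite α] [Group G] [Finite G]
    (A : Subgroup G) (hA : ∀ a ∈ A, ∀ b ∈ A, a * b = b * a)
    (hpow : ∀ g : G, g ^ p ∈ A) (hcomm : ∀ g h : G, g * h * g⁻¹ * h⁻¹ ∈ A)
    (f : α → G) (S : Set G) :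
    ∃ E : Vale.Agent.P329.GRE α, E.sh ≤ 1 ∧
      ∀ w : List α, w ∈ E.lang ↔ (w.map f).prod ∈ S := by
  classical
  cases nonempty_fintype α
  have := Fact.mk hp
  obtain ⟨E, hE, hL⟩ := Vale.Agent.P329.Height.h1_group A hA hpow hcomm f S
  exact ⟨E, hE, fun w => by rw [hL]; exact Iff.rfl⟩

end Vale.Agent.Results.P329.AbelianByElementary
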