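import Vale.Agent.P329.ClassThree

/-! Languages recognised by finite nilpotent groups of class at most three have height at most one. -/

namespace Vale.Agent.Results.P329.ClassThreeGroups

open Vale.Agent.P329

theorem result {α : Type*} [Finite α] {G : Type*} [Group G] [Finite G]
    (hG : (⊤ : Subgroup G).lowerCentralSeries 3 = ⊥) (φ : α → G) (S : Set G) :
    ∃ E : GRE α, E.sh ≤ 1 ∧ E.lang = {w : List α | (w.map φ).prod ∈ S} := by
  classical
  haveI : ClassThree.IsClass3 G := ⟨hG⟩
  exact ClassThree.meas_image φ S

end Vale.Agent.Results.P329.ClassThreeGroups
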