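import Vale.Agent.P329.Restart
import Mathlib.GroupTheory.Perm.Closure
import Mathlib.GroupTheory.Perm.Fin

namespace Vale.Agent.Results.P329.RestartPermGroups

open Vale.Agent.P329 LowHeight Equiv

theorem meas_prod {α : Type} [Finite α] {n : ℕ} [NeZero n] (φ : α → Perm (Fin n))
    (hφ : ∀ a x, φ a x = 0 ∨ φ a x = x ∨ x < φ a x) :
    Meas fun w : List α => (w.map φ).prod := by
  classical
  have hm := Restart.meas_trans (fun (x : Fin n) a => (φ a)⁻¹ x) 0
    (fun x => if x = 0 then 0 else n - (x : ℕ)) (fun x a => ?_)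
  · intro S
    refine (hm {f | ∃ σ ∈ S, (σ⁻¹ : Perm (Fin n)) = f}).of_mem_iff fun w => ?_
    have key : (fun x => w.foldl (fun x a => (φ a)⁻¹ x) x) = ⇑((w.map φ).prod)⁻¹ := by
      clear hm
      induction w with
      | nil => rfl
      | cons a w ih =>
        funext x
        simp only [List.foldl_cons, List.map_cons, List.prod_cons, mul_inv_rev, Perm.mul_apply]
        exact congrFun ih _
    rw [mem_fib, mem_fib, Set.mem_ofPred_eq, key]
    constructor
    · exact fun h => ⟨_, h, rfl⟩
    · rintro ⟨σ, hσ, he⟩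
      rwa [← inv_injective (Equiv.coe_fn_injective he)]
  · have hy := hφ a ((φ a)⁻¹ x)
    rw [← Perm.mul_apply, mul_inv_cancel, Perm.one_apply] at hy
    generalize (φ a)⁻¹ x = y at hy ⊢
    by_cases h0 : y = 0
    · exact Or.inl h0
    rcases hy with hy | hy | hy
    · right; right
      have := y.isLt
      simp [hy, h0]
    · exact Or.inr (Or.inl hy.symm)
    · right; right
      have hx : x ≠ 0 := by
        intro hx
        rw [hx, Fin.lt_def] at hy
        simp at hy
      have := x.isLt
      rw [Fin.lt_def] at hy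
      simp [hx, h0]
      omega

/-- Restart permutation groups, in particular every symmetric group with standard generators. -/
theorem result :
    (∀ (α : Type) [Finite α] (n : ℕ) [NeZero n] (φ : α → Perm (Fin n)),
      (∀ a x, φ a x = 0 ∨ φ a x = x ∨ x < φ a x) → ∀ S : Set (Perm (Fin n)),
        ∃ E : GRE α, E.sh ≤ 1 ∧ ∀ w : List α, w ∈ E.lang ↔ (w.map φ).prod ∈ S) ∧
    (∀ n : ℕ, ∃ φ : Bool → Perm (Fin (n + 2)),
      φ false = finRotate (n + 2) ∧ φ true = swap 0 1 ∧ Subgroup.closure (Set.range φ) = ⊤ ∧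
      ∀ S : Set (Perm (Fin (n + 2))),
        ∃ E : GRE Bool, E.sh ≤ 1 ∧ ∀ w : List Bool, w ∈ E.lang ↔ (w.map φ).prod ∈ S) := by
  have main : ∀ (α : Type) [Finite α] (n : ℕ) [NeZero n] (φ : α → Perm (Fin n)),
      (∀ a x, φ a x = 0 ∨ φ a x = x ∨ x < φ a x) → ∀ S : Set (Perm (Fin n)),
        ∃ E : GRE α, E.sh ≤ 1 ∧ ∀ w : List α, w ∈ E.lang ↔ (w.map φ).prod ∈ S := by
    intro α _ n _ φ hφ S
    obtain ⟨E, hE, hL⟩ := meas_prod φ hφ S
    exact ⟨E, hE, fun w => by rw [hL]; exact Iff.rfl⟩
  refine ⟨main, fun n => ?_⟩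
  refine ⟨fun b => if b then swap 0 1 else finRotate (n + 2), rfl, rfl, ?_, main Bool _ _ ?_⟩
  · have h := Equiv.Perm.closure_cycle_adjacent_swap (σ := finRotate (n + 2))
      isCycle_finRotate support_finRotate (0 : Fin (n + 2))
    rw [finRotate_apply, zero_add] at h
    rw [← h]
    congr 1
    ext σ
    simp
  · intro b x
    cases b
    · simp only [Bool.false_eq_true, if_false]
      by_cases hx : x = Fin.last (n + 1)
      · exact Or.inl (by simp [hx])
      · right; right
        exact (lt_finRotate_iff_ne_last x).2 hx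
    · simp only [if_true]
      by_cases h0 : x = 0
      · right; right
        simp [h0, swap_apply_left]
      · by_cases h1 : x = 1
        · left; simp [h1, swap_apply_right]
        · right; left
          exact swap_apply_of_ne_of_ne h0 h1

end Vale.Agent.Results.P329.RestartPermGroups
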